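import Mathlib

/-!
# Induced integral matrix representations
-/

open Finset Matrix

namespace Vale.Agent.P197.Littlewood

variable {G : Type*} [Group G] [Fintype G] (H : Subgroup G) [DecidableEq (G ⧸ H)]
variable {ι : Type*} [Fintype ι] [DecidableEq ι] {R : Type*} [CommRing R]

lemma rep_mem {g : G} {q q' : G ⧸ H} (h : g • q = q') : q'.out⁻¹ * (g * q.out) ∈ H := by
  rw [← QuotientGroup.eq, QuotientGroup.out_eq', ← h, ← smul_eq_mul,
    ← MulAction.Quotient.smul_mk, QuotientGroup.out_eq']

/-- The matrices of the representation induced from `M`. -/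
noncomputable def indMat (M : H →* Matrix ι ι R) (g : G) :
    Matrix ((G ⧸ H) × ι) ((G ⧸ H) × ι) R :=
  Matrix.of fun a b => if h : g • b.1 = a.1 then M ⟨_, rep_mem H h⟩ a.2 b.2 else 0

/-- The representation induced from `M`. -/
noncomputable def induced [Fintype (G ⧸ H)] (M : H →* Matrix ι ι R) :
    G →* Matrix ((G ⧸ H) × ι) ((G ⧸ H) × ι) R where
  toFun := indMat H M
  map_one' := by
    ext a b
    simp only [indMat, Matrix.of_apply]
    by_cases h : a.1 = b.1
    · rw [dif_pos ((one_smul G b.1).trans h.symm)]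
      have : (⟨_, rep_mem H ((one_smul G b.1).trans h.symm)⟩ : H) = 1 :=
        Subtype.ext (by simp [h])
      rw [this, map_one, Matrix.one_apply, Matrix.one_apply]
      exact if_congr ⟨fun h2 => Prod.ext h h2, fun h2 => congrArg Prod.snd h2⟩ rfl rfl
    · rw [dif_neg fun h2 => h (((one_smul G b.1).symm.trans h2).symm), Matrix.one_apply,
        if_neg fun h2 => h (congrArg Prod.fst h2)]
  map_mul' g g' := by
    ext a b
    rw [Matrix.mul_apply, Fintype.sum_prod_type, sum_eq_single (g' • b.1)]
    · simp only [indMat, Matrix.of_apply]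
      by_cases h : g • (g' • b.1) = a.1
      · rw [dif_pos ((mul_smul g g' b.1).trans h)]
        simp only [dif_pos h, dif_pos trivial]
        have key : ∀ u v w : H, u = v * w → M u a.2 b.2 = ∑ x, M v a.2 x * M w x b.2 :=
          fun u v w h => by rw [h, map_mul, Matrix.mul_apply]
        convert key ⟨_, rep_mem H ((mul_smul g g' b.1).trans h)⟩ ⟨_, rep_mem H h⟩
          ⟨_, rep_mem H (rfl : g' • b.1 = g' • b.1)⟩ (Subtype.ext (by simp [mul_assoc])) using 1
      · rw [dif_neg fun h2 => h ((mul_smul g g' b.1).symm.trans h2)]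
        simp [dif_neg h]
    · intro q _ hq
      exact sum_eq_zero fun i _ => by simp [indMat, Ne.symm hq]
    · simp

lemma trace_induced [Fintype (G ⧸ H)] (M : H →* Matrix ι ι R) (g : G) :
    (induced H M g).trace =
      ∑ q : G ⧸ H, if h : g • q = q then (M ⟨_, rep_mem H h⟩).trace else 0 := by
  simp only [Matrix.trace, Fintype.sum_prod_type, Matrix.diag_apply]
  refine sum_congr rfl fun q _ => ?_
  show (∑ i, indMat H M g (q, i) (q, i)) = _
  simp only [indMat, Matrix.of_apply]
  split_ifs <;> simp [*]

end Vale.Agent.P197.Littlewood
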