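import Vale.Agent.P197.SymChar

/-!
# The 2-core / 2-quotient formula

For colourings made of `k` monochromatic pairs and `f` single cells, the signed count of fixed
colourings factors as the core character times a signed count split by parity.
-/

open Finset Equiv

namespace Vale.Agent.P197.Littlewood

open SymChar

variable {N n₀ n₁ k f : ℕ}

/-- Colouring of pairs and singles from colourings of pairs and of singles. -/
def pairFun {X : Type*} (g : Fin k → X) (h : Fin f → X) : (Fin k × Bool) ⊕ Fin f → X :=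
  Sum.elim (g ∘ Prod.fst) h

lemma cnt_pairFun (g : Fin k → Fin N) (h : Fin f → Fin N) (j : Fin N) :
    cnt (pairFun g h) j = 2 * cnt g j + cnt h j := by
  rw [pairFun, cnt_sumElim]
  congr 1
  unfold cnt
  rw [card_filter, card_filter, Fintype.sum_prod_type, mul_sum]
  exact sum_congr rfl fun x _ => by simp; split_ifs <;> simp

/-- Summing out the single cells. -/
lemma sum_pair (a : Fin N → ℤ) (σ : Perm (Fin k)) (s : Perm (Fin f)) :
    ∑ g ∈ fixedCol N σ, ∑ h ∈ fixedCol N s, eps a (fun j => 2 * cnt g j + cnt h j) =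
      ∑ g ∈ fixedCol N σ, chi (fun i => a i - 2 * cnt g i) s := by
  unfold chi eps
  rw [sum_comm, sum_comm (s := fixedCol N σ)]
  refine sum_congr rfl fun h _ => ?_
  rw [sum_comm, sum_comm (s := fixedCol N σ)]
  refine sum_congr rfl fun w _ => ?_
  refine Finset.sum_bij' (fun g _ => w ∘ g) (fun g _ => w.symm ∘ g) ?_ ?_ ?_ ?_ ?_
  · intro g hg; rw [mem_fixedCol] at hg ⊢; rw [Function.comp_assoc, hg]
  · intro g hg; rw [mem_fixedCol] at hg ⊢; rw [Function.comp_assoc, hg]
  · intro g _; funext x; simp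
  · intro g _; funext x; simp
  · intro g _
    congr 1
    refine if_congr ?_ rfl rfl
    constructor <;> intro hh j <;> have := hh j <;>
      simp only [cnt_perm_comp, Nat.cast_add, Nat.cast_mul, Nat.cast_ofNat] at this ⊢ <;> omega

lemma eps_zero_eq_chi (a : Fin N → ℤ) : eps a 0 = chi a (1 : Perm Empty) := by
  have h2 : fixedCol N (1 : Perm Empty) = {isEmptyElim} := by
    ext g; simp [Subsingleton.elim g isEmptyElim]
  have h3 : cnt (isEmptyElim : Empty → Fin N) = 0 := by funext j; simp [cnt]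
  simp [chi, h2, h3]

lemma eps_zero_eq_zero_of_not_injective (a : Fin N → ℤ) (h : ¬ Function.Injective a) :
    eps a 0 = 0 := by
  rw [eps_zero_eq_chi]; exact chi_eq_zero_of_not_injective a h 1

lemma sum_delta_le {m : ℕ} {A : Fin m → ℤ} (hinj : Function.Injective A) (hpos : ∀ i, 0 ≤ A i) :
    ∑ i, delta m i ≤ ∑ i, A i ∧
      (∑ i, A i = ∑ i, delta m i → ∃ w : Perm (Fin m), A ∘ w = delta m) := by
  set w := Tuple.sort fun i => -A i
  have hmono := Tuple.monotone_sort fun i => -A i
  have hanti : ∀ i j, i < j → A (w j) < A (w i) := by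
    intro i j hij
    have h1 : -A (w i) ≤ -A (w j) := hmono hij.le
    have h2 : A (w i) ≠ A (w j) := fun h => hij.ne (w.injective (hinj h))
    omega
  have hle : ∀ (d : ℕ) (i : Fin m), (i : ℕ) + d + 1 = m → delta m i ≤ A (w i) := by
    intro d
    induction d with
    | zero => intro i hi; have := hpos (w i); unfold delta; omega
    | succ d ih =>
      intro i hi
      let j : Fin m := ⟨(i : ℕ) + 1, by omega⟩
      have h1 := ih j (by simp [j]; omega)
      have h2 := hanti i j (by simp [j, Fin.lt_def])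
      simp only [delta, j] at h1 h2 ⊢
      push_cast at h1
      omega
  have hle' : ∀ i ∈ (univ : Finset (Fin m)), delta m i ≤ A (w i) := fun i _ =>
    hle (m - 1 - i) i (by have := i.isLt; omega)
  have hsum : ∑ i, A (w i) = ∑ i, A i := Equiv.sum_comp w A
  refine ⟨hsum ▸ sum_le_sum hle', fun h => ⟨w, funext fun i => ?_⟩⟩
  exact ((sum_eq_sum_iff_of_le hle').mp (h.symm.trans hsum.symm) i (mem_univ i)).symm

/-- Beta numbers with parity blocks: evens `2 A`, odds `2 B + 1`. -/
def join (e : Fin n₀ ⊕ Fin n₁ ≃ Fin N) (A : Fin n₀ → ℤ) (B : Fin n₁ → ℤ) : Fin N → ℤ :=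
  Sum.elim (fun i => 2 * A i) (fun j => 2 * B j + 1) ∘ e.symm

/-- The term of one colouring of the pairs: the core times the two parity signs. -/
lemma chi_join_sub (e : Fin n₀ ⊕ Fin n₁ ≃ Fin N) (A : Fin n₀ → ℤ) (B : Fin n₁ → ℤ)
    (hk : ∑ i, (A i - delta n₀ i) + ∑ j, (B j - delta n₁ j) = k) (g : Fin k → Fin N)
    (s : Perm (Fin f)) :
    chi (fun i => join e A B i - 2 * cnt g i) s =
      chi (join e (delta n₀) (delta n₁)) s *
        (eps (fun i => A i - cnt g (e (.inl i))) 0 * eps (fun j => B j - cnt g (e (.inr j))) 0) := by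
  set A' := fun i => A i - (cnt g (e (.inl i)) : ℤ)
  set B' := fun j => B j - (cnt g (e (.inr j)) : ℤ)
  have ha : (fun i => join e A B i - 2 * (cnt g i : ℤ)) = join e A' B' := by
    funext x
    obtain ⟨y, rfl⟩ := e.surjective x
    cases y <;> simp [join, A', B'] <;> ring
  rw [ha]
  by_cases hA : ∃ i, A' i < 0
  · obtain ⟨i, hi⟩ := hA
    rw [chi_eq_zero_of_neg _ (i := e (.inl i)) (by simp [join]; omega),
      eps_eq_zero_of_neg A' hi]
    ring
  by_cases hB : ∃ j, B' j < 0
  · obtain ⟨j, hj⟩ := hB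
    rw [chi_eq_zero_of_neg _ (i := e (.inr j)) (by simp [join]; omega),
      eps_eq_zero_of_neg B' hj]
    ring
  by_cases hAi : Function.Injective A'
  swap
  · rw [eps_zero_eq_zero_of_not_injective A' hAi, chi_eq_zero_of_not_injective]
    · ring
    · exact fun h => hAi fun x y hxy => Sum.inl_injective (e.injective (h (by simp [join, hxy])))
  by_cases hBi : Function.Injective B'
  swap
  · rw [eps_zero_eq_zero_of_not_injective B' hBi, chi_eq_zero_of_not_injective]
    · ring
    · exact fun h => hBi fun x y hxy => Sum.inr_injective (e.injective (h (by simp [join, hxy])))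
  push Not at hA hB
  obtain ⟨hA1, hA2⟩ := sum_delta_le hAi hA
  obtain ⟨hB1, hB2⟩ := sum_delta_le hBi hB
  have hg : ((∑ i, (cnt g (e (.inl i)) : ℤ)) + ∑ j, (cnt g (e (.inr j)) : ℤ)) = k := by
    have h1 := sum_cnt g
    rw [Fintype.card_fin, ← e.sum_comp, Fintype.sum_sum_type] at h1
    exact_mod_cast h1
  have hsum : ∑ i, A' i + ∑ j, B' j = ∑ i, delta n₀ i + ∑ j, delta n₁ j := by
    simp only [A', B', sum_sub_distrib] at hk ⊢
    linarith
  obtain ⟨wA, hwA⟩ := hA2 (by omega)
  obtain ⟨wB, hwB⟩ := hB2 (by omega)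
  have hA' : A' = delta n₀ ∘ ⇑wA⁻¹ := by rw [← hwA]; funext i; simp
  have hB' : B' = delta n₁ ∘ ⇑wB⁻¹ := by rw [← hwB]; funext i; simp
  have hjoin : join e A' B' =
      join e (delta n₀) (delta n₁) ∘ ⇑(e.permCongr (Perm.sumCongr wA⁻¹ wB⁻¹)) := by
    funext x
    obtain ⟨y, rfl⟩ := e.surjective x
    cases y <;> simp [join, hA', hB', Equiv.permCongr_apply]
  have h0 : ∀ (m : ℕ) (w : Perm (Fin m)), eps (delta m ∘ ⇑w) 0 = Perm.sign w := by
    intro m w
    rw [eps_perm, eps_zero, mul_one]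
    exact ⟨fun i j h => delta_strictAnti h, delta_nonneg, by simp⟩
  rw [hjoin, chi_perm, hA', hB', h0, h0, Perm.sign_permCongr, Perm.sign_sumCongr]
  push_cast
  ring

lemma chi_eq_zero_of_sum_ne {α : Type*} [Fintype α] [DecidableEq α] (a : Fin N → ℤ) (π : Perm α)
    (h : ∑ i, a i ≠ ∑ i, delta N i + Fintype.card α) : chi a π = 0 := by
  refine sum_eq_zero fun g _ => sum_eq_zero fun w _ => ?_
  rw [if_neg, mul_zero]
  intro hw
  apply h
  rw [← Equiv.sum_comp w a, sum_congr rfl fun i _ => hw i, sum_add_distrib, ← Nat.cast_sum, sum_cnt]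
  ring

/-- The character of a product over all splittings of the points. -/
def splitSum (A : Fin n₀ → ℤ) (B : Fin n₁ → ℤ) (σ : Perm (Fin k)) : ℤ :=
  ∑ P : Finset (Fin k), if h : ∀ x, σ x ∈ P ↔ x ∈ P then
    chi A (σ.subtypePerm (p := fun x => x ∈ P) h) *
      chi B (σ.subtypePerm (p := fun x => x ∉ P) fun x => not_congr (h x)) else 0

lemma chi_eq_sum_eps {α : Type*} [Fintype α] [DecidableEq α] (a : Fin N → ℤ) (π : Perm α) :
    chi a π = ∑ g ∈ fixedCol N π, eps (fun i => a i - cnt g i) 0 := by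
  let e : Empty ⊕ α ≃ α := Equiv.emptySum Empty α
  have h : chi a π = chi a (Perm.sumCongr (1 : Perm Empty) π) := by
    rw [← chi_permCongr a e]
    congr 1
  rw [h, chi_sumCongr]
  exact sum_congr rfl fun g _ => (eps_zero_eq_chi _).symm

/-- Splitting by parity of the colour. -/
lemma sum_eps_eq_splitSum (e : Fin n₀ ⊕ Fin n₁ ≃ Fin N) (A : Fin n₀ → ℤ) (B : Fin n₁ → ℤ)
    (σ : Perm (Fin k)) :
    ∑ g ∈ fixedCol N σ,
        eps (fun i => A i - cnt g (e (.inl i))) 0 * eps (fun j => B j - cnt g (e (.inr j))) 0 =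
      splitSum A B σ := by
  classical
  rw [splitSum, ← sum_fiberwise_of_maps_to
    (g := fun g : Fin k → Fin N => ({x | (e.symm (g x)).isLeft} : Finset (Fin k))) (t := univ)
    (fun g _ => mem_univ _)]
  refine sum_congr rfl fun P _ => ?_
  split_ifs with hP
  swap
  · refine sum_eq_zero fun g hg => absurd (fun x => ?_) hP
    simp only [mem_filter, mem_fixedCol] at hg
    rw [← hg.2]
    simp [show g (σ x) = g x from congrFun hg.1 x]
  rw [chi_eq_sum_eps, chi_eq_sum_eps, sum_mul_sum, ← sum_product']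
  symm
  let G : ({x // x ∈ P} → Fin n₀) → ({x // x ∉ P} → Fin n₁) → Fin k → Fin N := fun g₀ g₁ x =>
    if h : x ∈ P then e (.inl (g₀ ⟨x, h⟩)) else e (.inr (g₁ ⟨x, h⟩))
  have hG0 : ∀ g₀ g₁ (x : {x // x ∈ P}), G g₀ g₁ x = e (.inl (g₀ x)) := fun g₀ g₁ x => dif_pos x.2
  have hG1 : ∀ g₀ g₁ (x : {x // x ∉ P}), G g₀ g₁ x = e (.inr (g₁ x)) := fun g₀ g₁ x => dif_neg x.2
  refine Finset.sum_bij (fun q _ => G q.1 q.2) ?_ ?_ ?_ ?_
  · intro q hq
    simp only [mem_product, mem_fixedCol] at hq
    simp only [mem_filter, mem_fixedCol]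
    constructor
    · funext x
      by_cases hx : x ∈ P
      · have := congrFun hq.1 ⟨x, hx⟩
        simp only [Function.comp_apply, Perm.subtypePerm_apply] at this ⊢
        rw [hG0 _ _ ⟨x, hx⟩, ← this, ← hG0 q.1 q.2]
      · have := congrFun hq.2 ⟨x, hx⟩
        simp only [Function.comp_apply, Perm.subtypePerm_apply] at this ⊢
        rw [hG1 _ _ ⟨x, hx⟩, ← this, ← hG1 q.1 q.2]
    · ext x
      by_cases hx : x ∈ P <;> simp [G, hx]
  · intro q _ q' _ h
    refine Prod.ext (funext fun x => ?_) (funext fun x => ?_)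
    · have := congrFun h x
      rw [hG0, hG0] at this
      exact Sum.inl_injective (e.injective this)
    · have := congrFun h x
      rw [hG1, hG1] at this
      exact Sum.inr_injective (e.injective this)
  · intro g hg
    simp only [mem_filter, mem_fixedCol] at hg
    obtain ⟨hfix, hPg⟩ := hg
    have hmem : ∀ x, x ∈ P ↔ (e.symm (g x)).isLeft = true := fun x => by simp [← hPg]
    let g₀ : {x // x ∈ P} → Fin n₀ := fun x => (e.symm (g x)).getLeft ((hmem x).mp x.2)
    let g₁ : {x // x ∉ P} → Fin n₁ := fun x => (e.symm (g x)).getRight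
      (by simpa using fun h => x.2 ((hmem x).mpr h))
    refine ⟨(g₀, g₁), ?_, funext fun x => ?_⟩
    · simp only [mem_product, mem_fixedCol]
      constructor <;> funext x <;> simp [g₀, g₁, show g (σ x) = g x from congrFun hfix x]
    · by_cases hx : x ∈ P
      · rw [hG0 g₀ g₁ ⟨x, hx⟩]
        simp [g₀]
      · rw [hG1 g₀ g₁ ⟨x, hx⟩]
        simp [g₁]
  · intro q _
    congr 2 <;> funext i <;> congr 2 <;> unfold cnt
    · refine card_bij (fun x _ => x.1) ?_ (fun _ _ _ _ h => Subtype.ext h) ?_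
      · intro x hx; simp only [mem_filter, mem_univ, true_and] at hx ⊢; rw [hG0, hx]
      · intro x hx
        simp only [mem_filter, mem_univ, true_and] at hx
        by_cases hxP : x ∈ P
        · exact ⟨⟨x, hxP⟩, by
            simpa [hG0 _ _ ⟨x, hxP⟩] using hx, rfl⟩
        · simp [hG1 _ _ ⟨x, hxP⟩] at hx
    · refine card_bij (fun x _ => x.1) ?_ (fun _ _ _ _ h => Subtype.ext h) ?_
      · intro x hx; simp only [mem_filter, mem_univ, true_and] at hx ⊢; rw [hG1, hx]
      · intro x hx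
        simp only [mem_filter, mem_univ, true_and] at hx
        by_cases hxP : x ∈ P
        · simp [hG0 _ _ ⟨x, hxP⟩] at hx
        · exact ⟨⟨x, hxP⟩, by simpa [hG1 _ _ ⟨x, hxP⟩] using hx, rfl⟩

/-- The signed count factors through core and quotient. -/
theorem sum_pair_eq (e : Fin n₀ ⊕ Fin n₁ ≃ Fin N) (A : Fin n₀ → ℤ) (B : Fin n₁ → ℤ)
    (hk : ∑ i, (A i - delta n₀ i) + ∑ j, (B j - delta n₁ j) = k)
    (σ : Perm (Fin k)) (s : Perm (Fin f)) :
    ∑ g ∈ fixedCol N σ, ∑ h ∈ fixedCol N s, eps (join e A B) (fun j => 2 * cnt g j + cnt h j) =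
      chi (join e (delta n₀) (delta n₁)) s * splitSum A B σ := by
  rw [sum_pair, ← sum_eps_eq_splitSum e, mul_sum]
  exact sum_congr rfl fun g _ => chi_join_sub e A B hk g s

end Vale.Agent.P197.Littlewood
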